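import Vale.Agent.P263B67.Kill
import Vale.Agent.P263B15.Rows

/-! # P263B: the rows STEPSC, KILL2, KILL3 -/

namespace Vale.Agent.P263B67

open Topology Metric Set Vale.Agent.P246.T Vale.Agent.P178.H948 Vale.Agent.P263B15

section

variable {X : Type} [TopologicalSpace X] {n : ℕ} {Γ : Type} {A B : Set X} {Φ : Γ → C(Dk n, X)}

/-- **Simple connectivity after attaching cells.** -/
theorem sc_cells' (hn : 2 ≤ n) (h : CellData n Γ B A Φ) [PathConnectedSpace A]
    (hA : ∀ (x y : B) (p q : Path x y), (∀ t, (p t).1 ∈ A) → (∀ t, (q t).1 ∈ A) →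
      p.Homotopic q) : SimplyConnectedSpace B := by
  obtain ⟨ρ, ρ0, ρA, ρΦ⟩ := h.htpy
  obtain ⟨a0⟩ : Nonempty A := inferInstance
  let inc : C(A, B) := ⟨Set.inclusion h.sub, continuous_inclusion _⟩
  let ph : Γ → C(Dk n, B) := fun g => ⟨fun x => ⟨Φ g x, h.mem g x⟩, (Φ g).continuous.subtype_mk _⟩
  let f : C(B, B) := ⟨fun y => ρ (1, y), by fun_prop⟩
  let F : (ContinuousMap.id B).Homotopy f := ⟨ρ, ρ0, fun _ => rfl⟩
  have e : ∀ g x, f (ph g x) = ph g (CL.ee n x) := fun g x => Subtype.ext (ρΦ 1 g x)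
  have hα : ∀ y : B, y.1 ∈ A → ∃ α : Path (inc a0) y, ∀ t, (α t).1 ∈ A := fun y hy =>
    ⟨(PathConnectedSpace.somePath a0 ⟨y.1, hy⟩).map inc.continuous,
      fun t => (PathConnectedSpace.somePath a0 ⟨y.1, hy⟩ t).2⟩
  have htr : ∀ {x y z : B} (p : Path x y) (q : Path y z), (∀ t, (p t).1 ∈ A) →
      (∀ t, (q t).1 ∈ A) → ∀ t, (p.trans q t).1 ∈ A := by
    intro x y z p q hp hq t
    rw [Path.trans_apply]
    split_ifs
    exacts [hp _, hq _]
  let b : Dk n := ⟨fun _ => 1, by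
    rw [mem_closedBall_zero_iff, pi_norm_le_iff_of_nonneg zero_le_one]
    simp⟩
  have hb : ‖(b : Fin n → ℝ)‖ = 1 := by
    have : Nonempty (Fin n) := ⟨⟨0, by omega⟩⟩
    change ‖(fun _ => 1 : Fin n → ℝ)‖ = 1
    rw [pi_norm_const, norm_one]
  choose α hα' using fun g => hα (ph g b) (h.bdry g b hb)
  let W : Set B := {y | ∀ g x, Φ g x = y → 1 / 2 < ‖(x : Fin n → ℝ)‖}
  have hW : ∀ y ∈ W, (f y).1 ∈ A := by
    intro y hy
    rcases h.cover y.1 y.2 with h1 | ⟨g, x, hx⟩
    · change (ρ (1, y)).1 ∈ A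
      rwa [ρA 1 y h1]
    · obtain rfl : ph g x = y := Subtype.ext hx
      rw [e]
      exact h.bdry g _ (CL.expd_out (hy g x rfl))
  have hδ : ∀ y : B, ∃ δ : Path (inc a0) (f y), (y ∈ W → ∀ t, (δ t).1 ∈ A) ∧
      ∀ g x (hx : f y = ph g (CL.ee n x)), x ∈ CL.ob n → ph g x = y → ∀ β : Path b (CL.ee n x),
        δ.Homotopic (((α g).trans (β.map (ph g).continuous)).cast rfl hx) := by
    intro y
    by_cases hy : y ∈ W
    · obtain ⟨δ, hδ⟩ := hα (f y) (hW y hy)
      refine ⟨δ, fun _ => hδ, fun g x hx _ hxy β => ?_⟩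
      obtain ⟨β', hβ'⟩ := path_bd hn hb (CL.expd_out (hy g x (congrArg Subtype.val hxy)))
      refine (hA _ _ δ (((α g).trans (Path.map (y := CL.ee n x) β' (ph g).continuous)).cast rfl hx)
        hδ (htr _ _ (hα' g) fun t => h.bdry g _ (hβ' t))).trans (hcast ?_ hx)
      exact Path.Homotopic.hcomp (Path.Homotopic.refl _)
        ((SimplyConnectedSpace.paths_homotopic _ _).map (ph g))
    · obtain ⟨g, x, hx, hlt⟩ : ∃ g x, Φ g x = y ∧ ¬ 1 / 2 < ‖(x : Fin n → ℝ)‖ := by
        by_contra hne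
        exact hy fun g x hx => by_contra fun h' => hne ⟨g, x, hx, h'⟩
      obtain rfl : ph g x = y := Subtype.ext hx
      refine ⟨((α g).trans ((PathConnectedSpace.somePath b (CL.ee n x)).map
        (ph g).continuous)).cast rfl (e g x), fun h' => (hy h').elim, fun g' x' hx' h1 h2 β => ?_⟩
      obtain ⟨rfl, rfl⟩ := h.inj g' g x' x h1 (by linarith [not_lt.1 hlt])
        (congrArg Subtype.val h2)
      exact hcast (Path.Homotopic.hcomp (Path.Homotopic.refl _)
        ((SimplyConnectedSpace.paths_homotopic _ _).map (ph g'))) _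
  choose δ hδ1 hδ2 using hδ
  refine sc_of_cover (fun i : Option Γ => i.elim W fun g => {y | y.1 ∈ Φ g '' CL.ob n}) ?_ ?_ F
    (inc a0) δ ?_
  · rintro (_ | g)
    · obtain ⟨O, hO, hOe⟩ := h.openW
      have : W = Subtype.val ⁻¹' O := by
        ext y
        constructor
        · intro hy
          have h1 : y.1 ∈ O ∩ B := hOe ▸ ⟨y.2, hy⟩
          exact h1.1
        · intro hy
          have h1 : y.1 ∈ O ∩ B := ⟨hy, y.2⟩
          rw [hOe] at h1
          exact h1.2
      exact this ▸ hO.preimage continuous_subtype_val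
    · obtain ⟨O, hO, hOe⟩ := h.openV g _ (CL.isOpen_ob n) fun x hx => hx
      have : {y : B | y.1 ∈ Φ g '' CL.ob n} = Subtype.val ⁻¹' O := by
        ext y
        rw [← hOe]
        exact ⟨fun hy => hy.1, fun hy => ⟨hy, y.2⟩⟩
      change IsOpen {y : B | y.1 ∈ Φ g '' CL.ob n}
      exact this ▸ hO.preimage continuous_subtype_val
  · intro y
    by_cases hy : y ∈ W
    · exact ⟨none, hy⟩
    · obtain ⟨g, x, hx, hlt⟩ : ∃ g x, Φ g x = y ∧ ¬ 1 / 2 < ‖(x : Fin n → ℝ)‖ := by
        by_contra hne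
        exact hy fun g x hx => by_contra fun h' => hne ⟨g, x, hx, h'⟩
      exact ⟨some g, x, show ‖(x : Fin n → ℝ)‖ < 1 by linarith [not_lt.1 hlt], hx⟩
  · rintro (_ | g) x y γ hγ
    · exact hA _ _ _ _ (htr _ _ (hδ1 x (γ.source ▸ hγ 0)) fun t => hW _ (hγ t))
        (hδ1 y (γ.target ▸ hγ 1))
    · obtain ⟨z, hz⟩ := lift_seg h g ⟨fun t => (γ t).1, by fun_prop⟩ (fun t => (γ t).2) hγ
      have hz' : ∀ t, ph g (z t) = γ t := fun t => Subtype.ext (hz t).2
      have e0 : ph g (z 0) = x := (hz' 0).trans γ.source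
      have e1 : ph g (z 1) = y := (hz' 1).trans γ.target
      let ζ : Path (CL.ee n (z 0)) (CL.ee n (z 1)) := ⟨(CL.ee n).comp z, rfl, rfl⟩
      let β := PathConnectedSpace.somePath b (CL.ee n (z 0))
      have h0 := hδ2 x g (z 0) (e0 ▸ e g _) (hz 0).1 e0 β
      have h1 := hδ2 y g (z 1) (e1 ▸ e g _) (hz 1).1 e1 (β.trans ζ)
      refine ((Path.Homotopic.hcomp h0 (Path.Homotopic.refl _)).trans ?_).trans h1.symm
      rw [trans_cast _ (ζ.map (ph g).continuous) _ _ (e1 ▸ e g _) fun t => by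
        change f (γ t) = ph g (CL.ee n (z t))
        rw [← hz', e], Path.map_trans]
      exact hcast ⟨Path.Homotopy.transAssoc _ _ _⟩ _

end

theorem hom_of_loop {Z : Type} [TopologicalSpace Z] {x y : Z} {p q : Path x y}
    (h : (p.trans q.symm).Homotopic (Path.refl x)) : p.Homotopic q :=
  cancel_right q.symm (h.trans ⟨Path.Homotopy.reflTransSymm q⟩)

theorem stepsc : STEPSC := by
  intro A B _ _ i a₀ hi n Γ Φ h hn hA hγ
  have : PathConnectedSpace (range i) :=
    isPathConnected_iff_pathConnectedSpace.1 (isPathConnected_range i.continuous)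
  have key : ∀ (x y : A) (p q : Path x y), (p.map i.continuous).Homotopic (q.map i.continuous) := by
    intro x y p q
    let α := PathConnectedSpace.somePath a₀ x
    have h1 := hγ ((α.trans p).trans (α.trans q).symm)
    rw [Path.map_trans, ← Path.map_symm] at h1
    have h2 := hom_of_loop h1
    rw [Path.map_trans, Path.map_trans] at h2
    exact cancel_left _ h2
  have := sc_cells' hn h fun x y p q hp hq => by
    obtain ⟨x, hx⟩ := x
    obtain ⟨y, hy⟩ := y
    obtain ⟨x, rfl⟩ : x ∈ range i := by simpa only [p.source] using hp 0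
    obtain ⟨y, rfl⟩ : y ∈ range i := by simpa only [p.target] using hp 1
    have l : ∀ r : Path (⟨i x, hx⟩ : (univ : Set B)) ⟨i y, hy⟩, (∀ t, (r t).1 ∈ range i) →
        ∃ r' : Path x y, ∀ t, i (r' t) = (r t).1 := by
      intro r hr
      choose s hs using hr
      have hc : Continuous s := by
        rw [hi.continuous_iff, show i ∘ s = fun t => (r t).1 from funext hs]
        fun_prop
      exact ⟨⟨⟨s, hc⟩, hi.injective ((hs 0).trans (congrArg Subtype.val r.source)),
        hi.injective ((hs 1).trans (congrArg Subtype.val r.target))⟩, hs⟩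
    obtain ⟨p', hp'⟩ := l p hp
    obtain ⟨q', hq'⟩ := l q hq
    have h3 := (key x y p' q').map (⟨fun b => ⟨b, mem_univ b⟩, by fun_prop⟩ : C(B, (univ : Set B)))
    have e1 : p = (p'.map i.continuous).map (show Continuous fun b : B =>
      (⟨b, mem_univ b⟩ : (univ : Set B)) by fun_prop) :=
      Path.ext (funext fun t => Subtype.ext (hp' t).symm)
    have e2 : q = (q'.map i.continuous).map (show Continuous fun b : B =>
      (⟨b, mem_univ b⟩ : (univ : Set B)) by fun_prop) :=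
      Path.ext (funext fun t => Subtype.ext (hq' t).symm)
    rw [e1, e2]
    exact h3
  exact (Homeomorph.Set.univ B).symm.toHomotopyEquiv.simplyConnectedSpace

theorem kill2 : KILL2 := by
  intro A B _ _ i a₀ m h g hg
  obtain ⟨K, h0, h1, h2⟩ := null_of_fill (j := i) a₀ g (fun x => hg x.1 x.2) h
  exact ⟨K, h0, h1, fun t x hx => h2 t ⟨x, hx⟩⟩

theorem kill3 : KILL3 := by
  intro A B _ _ i a₀ h γ
  let e : C(I, Dk 1) := ⟨fun s => ⟨fun _ => 2 * (s : ℝ) - 1, by
    rw [mem_closedBall_zero_iff, pi_norm_const, Real.norm_eq_abs, abs_le]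
    exact ⟨by linarith [s.2.1], by linarith [s.2.2]⟩⟩, by fun_prop⟩
  let g : C(Dk 1, A) := ⟨fun x => γ (P263.AD.Freu.cl ((1 + (x : Fin 1 → ℝ) 0) / 2)),
    γ.continuous.comp (P263.AD.Freu.continuous_cl.comp
      ((continuous_const.add ((continuous_apply 0).comp continuous_subtype_val)).div_const 2))⟩
  have hg : ∀ s, g (e s) = γ s := fun s => by
    change γ (P263.AD.Freu.cl ((1 + (2 * (s : ℝ) - 1)) / 2)) = γ s
    rw [show (1 + (2 * (s : ℝ) - 1)) / 2 = s by ring, P263.AD.Freu.cl_coe]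
  obtain ⟨H, h0, h1, h2⟩ := kill2 A B i a₀ 1 h g fun x hx => by
    have h3 : ‖(x : Fin 1 → ℝ)‖ = 1 := hx
    have h4 : (x : Fin 1 → ℝ) = fun _ => (x : Fin 1 → ℝ) 0 := by
      funext k
      rw [Subsingleton.elim k 0]
    rw [h4, pi_norm_const, Real.norm_eq_abs] at h3
    change γ _ = a₀
    rcases eq_or_eq_neg_of_abs_eq h3 with h5 | h5
    · rw [h5, P263.AD.Freu.cl_of_one_le (by norm_num), γ.target]
    · rw [h5, P263.AD.Freu.cl_of_nonpos (by norm_num), γ.source]
  refine ⟨⟨⟨⟨fun q => H (q.1, e q.2), by fun_prop⟩, fun s => (h0 _).trans (congrArg i (hg s)),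
    fun s => h1 _⟩, ?_⟩⟩
  rintro t s (rfl | rfl)
  · refine (h2 t (e 0) ?_).trans (congrArg i γ.source.symm)
    change ‖(fun _ => 2 * ((0 : I) : ℝ) - 1 : Fin 1 → ℝ)‖ = 1
    rw [pi_norm_const]
    norm_num
  · refine (h2 t (e 1) ?_).trans (congrArg i γ.target.symm)
    change ‖(fun _ => 2 * ((1 : I) : ℝ) - 1 : Fin 1 → ℝ)‖ = 1
    rw [pi_norm_const]
    norm_num

end Vale.Agent.P263B67
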