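import Vale.Agent.P263B67.SC
import Vale.Agent.P263B94.Loop

/-! # P263B: maps of spheres into a space with cells attached -/

namespace Vale.Agent.P263B67

open Topology Metric Set Vale.Agent.P246.T Vale.Agent.P263.AD.Freu

variable {A M Γ : Type} [TopologicalSpace A] [TopologicalSpace M] {m : ℕ} {j : C(A, M)}
  {Φ : Γ → C(Dk m, M)}

theorem sc_range (hj : IsEmbedding j) [SimplyConnectedSpace A] : SimplyConnectedSpace (range j) :=
  (hj.toHomeomorph).symm.toHomotopyEquiv.simplyConnectedSpace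

/-- the space with the cells is simply connected -/
theorem sc_att (hj : IsEmbedding j) (hm : 2 ≤ m) (h : CellData m Γ univ (range j) Φ)
    [SimplyConnectedSpace A] : SimplyConnectedSpace M :=
  have := sc_range hj
  have := sc_cells hm h
  (Homeomorph.Set.univ M).symm.toHomotopyEquiv.simplyConnectedSpace

theorem hzero_cells {B A : Set M} (h : CellData m Γ B A Φ) {k : ℕ} (hk : k ≠ m) : HZero B A k := by
  obtain ⟨P⟩ := PR.main
  obtain ⟨ζ, hζ⟩ := FM.exists_fund P CC.main1 CL.main m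
  exact (CL.main M m Γ B A Φ ζ hζ h).1 k hk

theorem lftS_cells (hj : IsEmbedding j) (hm : 2 ≤ m) (h : CellData m Γ univ (range j) Φ)
    [SimplyConnectedSpace A] {k : ℕ} (hk : k < m) : LftS (range j) k := by
  have := sc_range hj
  have := sc_att hj hm h
  obtain ⟨n, rfl⟩ : ∃ n, m = n + 2 := ⟨m - 2, by omega⟩
  exact lft_range n M (range j) (fun i hi => hzero_cells h (by omega)) k (by omega)

theorem lft_cells (hj : IsEmbedding j) (hm : 2 ≤ m) (h : CellData m Γ univ (range j) Φ)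
    [SimplyConnectedSpace A] {k : ℕ} (hk : k < m) : Lft (range j) k :=
  CV.main M _ k (lftS_cells hj hm h hk)

/-- a map of the cube with constant boundary values is deformed into `A` -/
theorem deform_cube (hj : IsEmbedding j) {k : ℕ} (hL : Lft (range j) k) (a : A) (s : C(Dk k, M))
    (hs : ∀ x : bdk k, s x = j a) :
    ∃ (s' : C(Dk k, A)) (K : C(I × Dk k, M)), (∀ x : bdk k, s' x = a) ∧ (∀ x, K (0, x) = s x) ∧
      (∀ x, K (1, x) = j (s' x)) ∧ ∀ t (x : bdk k), K (t, x) = j a := by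
  obtain ⟨K, h0, h1, h2⟩ := hL s (ContinuousMap.const _ (j a)) (fun x => (hs x).symm)
    fun _ => ⟨a, rfl⟩
  choose s' hs' using h2
  have hc : Continuous s' := by
    rw [hj.continuous_iff, show j ∘ s' = fun x => K (1, x) from funext hs']
    fun_prop
  exact ⟨⟨s', hc⟩, K, fun x => hj.injective ((hs' x).trans (h1 1 x)), h0,
    fun x => (hs' x).symm, h1⟩

/-- a based map of a sphere is deformed into `A` -/
theorem deform_sph (hj : IsEmbedding j) {k : ℕ} (hk : 1 ≤ k) (hL : Lft (range j) k) (a : A)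
    (f : C(OnePoint (Fin k → ℝ), M)) (hf : f OnePoint.infty = j a) :
    ∃ (g : C(OnePoint (Fin k → ℝ), A)) (H : C(I × OnePoint (Fin k → ℝ), M)),
      g OnePoint.infty = a ∧ (∀ x, H (0, x) = f x) ∧ (∀ x, H (1, x) = j (g x)) ∧
      ∀ t, H (t, OnePoint.infty) = j a := by
  obtain ⟨s', K, h1, h2, h3, h4⟩ := deform_cube hj hL a (f.comp (qD k)) fun x => by
    rw [ContinuousMap.comp_apply, qD_bd x.2, hf]
  obtain ⟨H, hH⟩ := exists_descD hk K fun t x y hx hy => (h4 t ⟨x, hx⟩).trans (h4 t ⟨y, hy⟩).symm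
  obtain ⟨g, hg⟩ := exists_descD hk (s'.comp (ContinuousMap.snd : C(I × Dk k, Dk k)))
    fun t x y hx hy => (h1 ⟨x, hx⟩).trans (h1 ⟨y, hy⟩).symm
  obtain ⟨x0, hx0⟩ := qD_surjective hk OnePoint.infty
  have hb := P263B94.qD_eq_infty hx0
  refine ⟨⟨fun x => g (0, x), by fun_prop⟩, H, ?_, fun x => ?_, fun x => ?_, fun t => ?_⟩
  · rw [← hx0]
    exact (hg 0 x0).trans (h1 ⟨x0, hb⟩)
  · obtain ⟨y, rfl⟩ := qD_surjective hk x
    rw [hH, h2]
    rfl
  · obtain ⟨y, rfl⟩ := qD_surjective hk x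
    rw [hH, h3]
    exact congrArg j (hg 0 y).symm
  · rw [← hx0, hH]
    exact h4 t ⟨x0, hb⟩

/-- concatenation of homotopies -/
theorem exists_concat {P : Type} [TopologicalSpace P] (H H' : C(I × P, M))
    (h : ∀ x, H (1, x) = H' (0, x)) : ∃ K : C(I × P, M), (∀ x, K (0, x) = H (0, x)) ∧
      (∀ x, K (1, x) = H' (1, x)) ∧ ∀ t x, (∃ s, K (t, x) = H (s, x)) ∨ ∃ s, K (t, x) = H' (s, x) := by
  refine ⟨⟨fun q => if (q.1 : ℝ) ≤ 1 / 2 then H (cl (2 * q.1), q.2) else H' (cl (2 * q.1 - 1), q.2),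
    Continuous.if_le (H.continuous.comp ((continuous_cl.comp (by fun_prop)).prodMk continuous_snd))
      (H'.continuous.comp ((continuous_cl.comp (by fun_prop)).prodMk continuous_snd))
      (by fun_prop) continuous_const fun q hq => ?_⟩, fun x => ?_, fun x => ?_, fun t x => ?_⟩
  · rw [hq, cl_of_one_le (by norm_num), cl_of_nonpos (by norm_num), h]
  · change (if _ then _ else _) = _
    rw [if_pos (by norm_num), cl_of_nonpos (by norm_num)]
  · change (if _ then _ else _) = _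
    rw [if_neg (by norm_num), cl_of_one_le (by norm_num)]
  · simp only [ContinuousMap.coe_mk]
    split_ifs
    exacts [.inl ⟨_, rfl⟩, .inr ⟨_, rfl⟩]

/-- `π_k(M) = 0` if all the based maps `S^k → A` become null homotopic in `M` -/
theorem pn_of_null (hj : IsEmbedding j) {k : ℕ} (hk : 1 ≤ k) (hL : Lft (range j) k) (a : A)
    (hn : ∀ g : C(OnePoint (Fin k → ℝ), A), g OnePoint.infty = a →
      ∃ H : C(I × OnePoint (Fin k → ℝ), M), (∀ x, H (0, x) = j (g x)) ∧ (∀ x, H (1, x) = j a) ∧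
        ∀ t, H (t, OnePoint.infty) = j a) : PN M (j a) k := by
  intro f hf
  obtain ⟨g, H, h1, h2, h3, h4⟩ := deform_sph hj hk hL a f hf
  obtain ⟨H', h5, h6, h7⟩ := hn g h1
  obtain ⟨K, k0, k1, k2⟩ := exists_concat H H' fun x => (h3 x).trans (h5 x).symm
  refine ⟨K, fun x => (k0 x).trans (h2 x), fun x => (k1 x).trans (h6 x), fun t => ?_⟩
  rcases k2 t OnePoint.infty with ⟨s, hs⟩ | ⟨s, hs⟩
  exacts [hs.trans (h4 s), hs.trans (h7 s)]

/-- vanishing homotopy groups below the dimension of the cells stay zero -/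
theorem pn_keep (hj : IsEmbedding j) (hm : 2 ≤ m) (h : CellData m Γ univ (range j) Φ)
    [SimplyConnectedSpace A] {k : ℕ} (hk : k < m) (a : A) (hA : PN A a k) : PN M (j a) k := by
  rcases Nat.eq_zero_or_pos k with rfl | hk0
  · have := sc_att hj hm h
    exact P263B94.pn_zero _
  refine pn_of_null hj hk0 (lft_cells hj hm h hk) a fun g hg => ?_
  obtain ⟨H, h1, h2, h3⟩ := hA g hg
  exact ⟨j.comp H, fun x => congrArg j (h1 x), fun x => congrArg j (h2 x),
    fun t => congrArg j (h3 t)⟩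

/-- the last coordinates -/
noncomputable def tl {n : ℕ} : C(Dk (n + 1), Dk n) :=
  ⟨fun y => clp n (Fin.tail (y : Fin (n + 1) → ℝ)), (continuous_clp n).comp
    (continuous_pi fun _ => (continuous_apply _).comp continuous_subtype_val)⟩

theorem clp_val {n : ℕ} {x : Fin n → ℝ} (h : ‖x‖ ≤ 1) : ((clp n x : Dk n) : Fin n → ℝ) = x := by
  funext i
  have hi := abs_le.1 ((norm_le_pi_norm x i).trans h)
  change max (-1) (min 1 (x i)) = x i
  rw [min_eq_right hi.2, max_eq_right hi.1]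

theorem norm_cons {n : ℕ} (y : Fin (n + 1) → ℝ) : ‖y‖ = max |y 0| ‖Fin.tail y‖ := by
  refine eq_of_forall_ge_iff fun r => ?_
  rcases lt_or_ge r 0 with hr | hr
  · exact iff_of_false (not_le.2 (hr.trans_le (norm_nonneg _)))
      (not_le.2 (hr.trans_le (le_max_of_le_left (abs_nonneg _))))
  · rw [max_le_iff, pi_norm_le_iff_of_nonneg hr, pi_norm_le_iff_of_nonneg hr, Fin.forall_fin_succ]
    rfl

theorem tl_val {n : ℕ} (y : Dk (n + 1)) :
    ((tl y : Dk n) : Fin n → ℝ) = Fin.tail (y : Fin (n + 1) → ℝ) :=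
  clp_val ((le_max_right _ _).trans ((norm_cons _).symm.trans_le (norm_le_one y)))

/-- the cylinder `I × D^n → D^(n+1)` -/
noncomputable def cyl (n : ℕ) : C(I × Dk n, Dk (n + 1)) :=
  ⟨fun q => ⟨Fin.cons (α := fun _ => ℝ) (2 * (q.1 : ℝ) - 1) (q.2 : Fin n → ℝ), by
    rw [mem_closedBall_zero_iff, norm_cons, Fin.cons_zero, Fin.tail_cons, max_le_iff, abs_le]
    exact ⟨⟨by linarith [q.1.2.1], by linarith [q.1.2.2]⟩, norm_le_one q.2⟩⟩,
    Continuous.subtype_mk (Continuous.finCons (by fun_prop) (by fun_prop)) _⟩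

theorem cyl_zero {n : ℕ} (t : I) (x : Dk n) :
    (cyl n (t, x) : Fin (n + 1) → ℝ) 0 = 2 * (t : ℝ) - 1 := rfl

theorem tl_cyl {n : ℕ} (t : I) (x : Dk n) : tl (cyl n (t, x)) = x :=
  Subtype.ext (tl_val _)

theorem norm_cyl {n : ℕ} (t : I) (x : Dk n) :
    ‖(cyl n (t, x) : Fin (n + 1) → ℝ)‖ = max |2 * (t : ℝ) - 1| ‖(x : Fin n → ℝ)‖ := norm_cons _

/-- the map of the boundary of the cube given by a map of its lower face -/
theorem exists_low {n : ℕ} (a : A) (s : C(Dk n, A)) (hs : ∀ x : bdk n, s x = a) :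
    ∃ f : C(bdk (n + 1), A), ∀ y : bdk (n + 1),
      f y = if (y.1 : Fin (n + 1) → ℝ) 0 ≤ 0 then s (tl y.1) else a := by
  refine ⟨⟨_, Continuous.if_le (s.continuous.comp (tl.continuous.comp continuous_subtype_val))
    continuous_const ((continuous_apply 0).comp (continuous_subtype_val.comp
      continuous_subtype_val)) continuous_const fun y hy => hs ⟨_, ?_⟩⟩, fun _ => rfl⟩
  have h1 : ‖(y.1 : Fin (n + 1) → ℝ)‖ = 1 := y.2
  have h2 : (y.1 : Fin (n + 1) → ℝ) 0 = 0 := hy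
  change ‖((tl y.1 : Dk n) : Fin n → ℝ)‖ = 1
  rwa [norm_cons, h2, abs_zero, max_eq_right (norm_nonneg _), ← tl_val] at h1

/-- a filling of the boundary map is a null homotopy -/
theorem null_of_fill {n : ℕ} (a : A) (s : C(Dk n, A)) (hs : ∀ x : bdk n, s x = a)
    (hall : ∀ f : C(bdk (n + 1), A), ∃ F : C(Dk (n + 1), M), ∀ y : bdk (n + 1), F y = j (f y)) :
    ∃ K : C(I × Dk n, M), (∀ x, K (0, x) = j (s x)) ∧ (∀ x, K (1, x) = j a) ∧
      ∀ t (x : bdk n), K (t, x) = j a := by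
  obtain ⟨f, hf⟩ := exists_low a s hs
  obtain ⟨F, hF⟩ := hall f
  refine ⟨F.comp (cyl n), fun x => ?_, fun x => ?_, fun t x => ?_⟩
  · refine (hF ⟨cyl n (0, x), ?_⟩).trans ?_
    · change ‖(cyl n (0, x) : Fin (n + 1) → ℝ)‖ = 1
      rw [norm_cyl, max_eq_left ((norm_le_one x).trans (by norm_num))]
      norm_num
    · rw [hf, if_pos (by rw [cyl_zero]; norm_num), tl_cyl]
  · refine (hF ⟨cyl n (1, x), ?_⟩).trans ?_
    · change ‖(cyl n (1, x) : Fin (n + 1) → ℝ)‖ = 1
      rw [norm_cyl, max_eq_left ((norm_le_one x).trans (by norm_num))]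
      norm_num
    · rw [hf, if_neg (by rw [cyl_zero]; norm_num)]
  · refine (hF ⟨cyl n (t, x), ?_⟩).trans ?_
    · have hx : ‖(x.1 : Fin n → ℝ)‖ = 1 := x.2
      change ‖(cyl n (t, x) : Fin (n + 1) → ℝ)‖ = 1
      rw [norm_cyl, hx, max_eq_right (abs_le.2 ⟨by linarith [t.2.1], by linarith [t.2.2]⟩)]
    · rw [hf, tl_cyl, hs, ite_self]

/-- **Killing `π_n`**: all the maps of the boundary of the cube to `A` extend to the cube in `M`. -/
theorem pn_kill (hj : IsEmbedding j) {n : ℕ} (hn : 1 ≤ n) (hL : Lft (range j) n) (a : A)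
    (hall : ∀ f : C(bdk (n + 1), A), ∃ F : C(Dk (n + 1), M), ∀ y : bdk (n + 1), F y = j (f y)) :
    PN M (j a) n := by
  refine pn_of_null hj hn hL a fun g hg => ?_
  obtain ⟨K, h0, h1, h2⟩ := null_of_fill (j := j) a (g.comp (qD n))
    (fun x => by rw [ContinuousMap.comp_apply, qD_bd x.2, hg]) hall
  obtain ⟨H, hH⟩ := exists_descD hn K fun t x y hx hy => (h2 t ⟨x, hx⟩).trans (h2 t ⟨y, hy⟩).symm
  refine ⟨H, fun x => ?_, fun x => ?_, fun t => ?_⟩
  · obtain ⟨y, rfl⟩ := qD_surjective hn x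
    rw [hH, h0]
    rfl
  · obtain ⟨y, rfl⟩ := qD_surjective hn x
    rw [hH, h1]
  · obtain ⟨x0, hx0⟩ := qD_surjective hn OnePoint.infty
    rw [← hx0, hH]
    exact h2 t ⟨x0, P263B94.qD_eq_infty hx0⟩

end Vale.Agent.P263B67
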