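import Vale.Agent.P246.T.CL
import Vale.Agent.P178.H948.VK
import Mathlib.Analysis.Normed.Module.Connected
import Mathlib.Analysis.Convex.Contractible

/-! # P263B: attaching a family of cells of dimension at least two keeps simple connectivity -/

namespace Vale.Agent.P263B67

open Topology Metric Set Vale.Agent.P246.T Vale.Agent.P178.H948

section

variable {Z : Type} [TopologicalSpace Z]

theorem trans_cast {a b c b' c' : Z} (p : Path a b) (q : Path b c) (q' : Path b' c') (hb : b' = b)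
    (hc : c' = c) (h : ∀ t, q' t = q t) : (p.cast rfl hb).trans q' = (p.trans q).cast rfl hc := by
  subst hb hc
  obtain rfl : q' = q := Path.ext (funext h)
  rfl

theorem hcast {a b b' : Z} {p q : Path a b} (h : p.Homotopic q) (hb : b' = b) :
    (p.cast rfl hb).Homotopic (q.cast rfl hb) := by
  subst hb
  exact h

/-- a weak form of the theorem of van Kampen, after a deformation `f` of the identity -/
theorem sc_of_cover {ι : Type} (c : ι → Set Z) (hc : ∀ i, IsOpen (c i)) (hcov : ∀ x, ∃ i, x ∈ c i)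
    {f : C(Z, Z)} (F : (ContinuousMap.id Z).Homotopy f) (z0 : Z) (δ : ∀ x, Path z0 (f x))
    (hU : ∀ i (x y : Z) (γ : Path x y), (∀ t, γ t ∈ c i) →
      ((δ x).trans (γ.map f.continuous)).Homotopic (δ y)) : SimplyConnectedSpace Z := by
  have key : ∀ {x y : Z} (γ : Path x y), ((δ x).trans (γ.map f.continuous)).Homotopic (δ y) := by
    intro x y γ
    obtain ⟨t, ht0, htm, ⟨m, hm⟩, hti⟩ := exists_monotone_Icc_subset_open_cover_unitInterval
      (c := fun i => γ ⁻¹' c i) (fun i => (hc i).preimage γ.continuous)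
      (fun s _ => by
        obtain ⟨i, hi⟩ := hcov (γ s)
        exact mem_iUnion.2 ⟨i, hi⟩)
    have ind : ∀ n, ((δ (γ 0)).trans ((γ.subpath 0 (t n)).map f.continuous)).Homotopic
        (δ (γ (t n))) := by
      intro n
      induction n with
      | zero =>
        rw [ht0, Path.subpath_self]
        exact ⟨Path.Homotopy.transRefl _⟩
      | succ n ih =>
        obtain ⟨i, hi⟩ := hti n
        have hle : t n ≤ t (n + 1) := htm (Nat.le_succ n)
        have h1 : ((γ.subpath 0 (t n)).trans (γ.subpath (t n) (t (n + 1)))).Homotopic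
            (γ.subpath 0 (t (n + 1))) := ⟨Path.Homotopy.subpathTransSubpath γ 0 (t n) (t (n + 1))⟩
        have h2 := hU i _ _ (γ.subpath (t n) (t (n + 1))) fun s =>
          hi ⟨Icc.le_convexComb hle s, Icc.convexComb_le hle s⟩
        have h3 := Path.Homotopic.hcomp (Path.Homotopic.refl (δ (γ 0))) (h1.symm.map f)
        rw [Path.map_trans] at h3
        exact ((h3.trans (Path.Homotopic.symm ⟨Path.Homotopy.transAssoc _ _ _⟩)).trans
          (Path.Homotopic.hcomp ih (Path.Homotopic.refl _))).trans h2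
    have h := ind m
    rw [hm m le_rfl, Path.subpath_zero_one] at h
    have gen : ∀ (x' y' : Z) (hx : x' = x) (hy : y' = y),
        ((δ x').trans ((γ.cast hx hy).map f.continuous)).Homotopic (δ y') →
        ((δ x).trans (γ.map f.continuous)).Homotopic (δ y) := by
      rintro _ _ rfl rfl h
      exact h
    exact gen _ _ _ _ h
  have : PathConnectedSpace Z := ⟨⟨z0⟩, fun x y =>
    ⟨((F.evalAt x).trans (δ x).symm).trans ((δ y).trans (F.evalAt y).symm)⟩⟩
  rw [simply_connected_iff_paths_homotopic']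
  refine ⟨this, fun {x y} p q => ?_⟩
  have h := homotopic_of_homotopy F p q (cancel_left (δ x) ((key p).trans (key q).symm))
  exact h

end

instance scDk (n : ℕ) : SimplyConnectedSpace (Dk n) :=
  have := (convex_closedBall (0 : Fin n → ℝ) 1).contractibleSpace (nonempty_closedBall.2 zero_le_one)
  inferInstance

theorem path_bd {n : ℕ} (hn : 2 ≤ n) {x y : Dk n} (hx : ‖(x : Fin n → ℝ)‖ = 1)
    (hy : ‖(y : Fin n → ℝ)‖ = 1) : ∃ β : Path x y, ∀ t, ‖(β t : Fin n → ℝ)‖ = 1 := by
  have hr : 1 < Module.rank ℝ (Fin n → ℝ) := by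
    rw [rank_fin_fun]
    exact_mod_cast hn
  have hj : JoinedIn (sphere (0 : Fin n → ℝ) 1) x y :=
    (isPathConnected_sphere hr 0 zero_le_one).joinedIn _ (by simpa using hx) _ (by simpa using hy)
  have h1 : ∀ t, ‖hj.somePath t‖ = 1 := fun t => by simpa using hj.somePath_mem t
  have hm : ∀ t, hj.somePath t ∈ closedBall (0 : Fin n → ℝ) 1 := fun t => by
    rw [mem_closedBall_zero_iff, h1]
  exact ⟨{ toFun := fun t => ⟨hj.somePath t, hm t⟩
           continuous_toFun := hj.somePath.continuous.subtype_mk hm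
           source' := Subtype.ext hj.somePath.source
           target' := Subtype.ext hj.somePath.target }, h1⟩

variable {X : Type} [TopologicalSpace X] {n : ℕ} {Γ : Type} {A B : Set X} {Φ : Γ → C(Dk n, X)}

theorem lift_seg (h : CellData n Γ B A Φ) (g : Γ) (δ : C(I, X)) (hB : ∀ t, δ t ∈ B)
    (hδ : ∀ t, δ t ∈ Φ g '' CL.ob n) : ∃ z : C(I, Dk n), ∀ t, z t ∈ CL.ob n ∧ Φ g (z t) = δ t := by
  choose z hz1 hz2 using hδ
  refine ⟨⟨z, continuous_def.2 fun U hU => ?_⟩, fun t => ⟨hz1 t, hz2 t⟩⟩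
  obtain ⟨O, hO, hOe⟩ := h.openV g _ (hU.inter (CL.isOpen_ob n)) fun x hx => hx.2
  have : z ⁻¹' U = δ ⁻¹' O := by
    ext t
    constructor
    · intro ht
      have h1 : δ t ∈ O ∩ B := hOe ▸ ⟨z t, ⟨ht, hz1 t⟩, hz2 t⟩
      exact h1.1
    · intro ht
      obtain ⟨x, hx, hxe⟩ : δ t ∈ Φ g '' (U ∩ CL.ob n) := hOe ▸ ⟨ht, hB t⟩
      change z t ∈ U
      rw [(h.inj g g (z t) x (hz1 t) hx.2 ((hz2 t).trans hxe.symm)).2]
      exact hx.1
  rw [this]
  exact hO.preimage δ.continuous

/-- **Simple connectivity after attaching cells.** -/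
theorem sc_cells (hn : 2 ≤ n) (h : CellData n Γ B A Φ) [SimplyConnectedSpace A] :
    SimplyConnectedSpace B := by
  obtain ⟨ρ, ρ0, ρA, ρΦ⟩ := h.htpy
  obtain ⟨a0⟩ : Nonempty A := inferInstance
  let inc : C(A, B) := ⟨Set.inclusion h.sub, continuous_inclusion _⟩
  let ph : Γ → C(Dk n, B) := fun g => ⟨fun x => ⟨Φ g x, h.mem g x⟩, (Φ g).continuous.subtype_mk _⟩
  let f : C(B, B) := ⟨fun y => ρ (1, y), by fun_prop⟩
  let F : (ContinuousMap.id B).Homotopy f := ⟨ρ, ρ0, fun _ => rfl⟩
  have e : ∀ g x, f (ph g x) = ph g (CL.ee n x) := fun g x => Subtype.ext (ρΦ 1 g x)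
  have hA : ∀ (x y : B) (p q : Path x y), (∀ t, (p t).1 ∈ A) → (∀ t, (q t).1 ∈ A) →
      p.Homotopic q := by
    intro x y p q hp hq
    have hx : x.1 ∈ A := p.source ▸ hp 0
    have hy : y.1 ∈ A := p.target ▸ hp 1
    let l : ∀ r : Path x y, (∀ t, (r t).1 ∈ A) → Path (⟨x.1, hx⟩ : A) ⟨y.1, hy⟩ := fun r hr =>
      { toFun := fun t => ⟨(r t).1, hr t⟩
        continuous_toFun := (continuous_subtype_val.comp r.continuous).subtype_mk _
        source' := Subtype.ext (congrArg Subtype.val r.source :)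
        target' := Subtype.ext (congrArg Subtype.val r.target :) }
    exact (SimplyConnectedSpace.paths_homotopic (l p hp) (l q hq)).map inc
  have hα : ∀ y : B, y.1 ∈ A → ∃ α : Path (inc a0) y, ∀ t, (α t).1 ∈ A := fun y hy =>
    ⟨(PathConnectedSpace.somePath a0 ⟨y.1, hy⟩).map inc.continuous,
      fun t => (PathConnectedSpace.somePath a0 ⟨y.1, hy⟩ t).2⟩
  have htr : ∀ {x y z : B} (p : Path x y) (q : Path y z), (∀ t, (p t).1 ∈ A) →
      (∀ t, (q t).1 ∈ A) → ∀ t, (p.trans q t).1 ∈ A := by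
    intro x y z p q hp hq t
    rw [Path.trans_apply]
    split_ifs
    exacts [hp _, hq _]
  let b : Dk n := ⟨fun _ => 1, by
    rw [mem_closedBall_zero_iff, pi_norm_le_iff_of_nonneg zero_le_one]
    simp⟩
  have hb : ‖(b : Fin n → ℝ)‖ = 1 := by
    have : Nonempty (Fin n) := ⟨⟨0, by omega⟩⟩
    change ‖(fun _ => 1 : Fin n → ℝ)‖ = 1
    rw [pi_norm_const, norm_one]
  choose α hα' using fun g => hα (ph g b) (h.bdry g b hb)
  let W : Set B := {y | ∀ g x, Φ g x = y → 1 / 2 < ‖(x : Fin n → ℝ)‖}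
  have hW : ∀ y ∈ W, (f y).1 ∈ A := by
    intro y hy
    rcases h.cover y.1 y.2 with h1 | ⟨g, x, hx⟩
    · change (ρ (1, y)).1 ∈ A
      rwa [ρA 1 y h1]
    · obtain rfl : ph g x = y := Subtype.ext hx
      rw [e]
      exact h.bdry g _ (CL.expd_out (hy g x rfl))
  have hδ : ∀ y : B, ∃ δ : Path (inc a0) (f y), (y ∈ W → ∀ t, (δ t).1 ∈ A) ∧
      ∀ g x (hx : f y = ph g (CL.ee n x)), x ∈ CL.ob n → ph g x = y → ∀ β : Path b (CL.ee n x),
        δ.Homotopic (((α g).trans (β.map (ph g).continuous)).cast rfl hx) := by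
    intro y
    by_cases hy : y ∈ W
    · obtain ⟨δ, hδ⟩ := hα (f y) (hW y hy)
      refine ⟨δ, fun _ => hδ, fun g x hx _ hxy β => ?_⟩
      obtain ⟨β', hβ'⟩ := path_bd hn hb (CL.expd_out (hy g x (congrArg Subtype.val hxy)))
      refine (hA _ _ δ (((α g).trans (Path.map (y := CL.ee n x) β' (ph g).continuous)).cast rfl hx)
        hδ (htr _ _ (hα' g) fun t => h.bdry g _ (hβ' t))).trans (hcast ?_ hx)
      exact Path.Homotopic.hcomp (Path.Homotopic.refl _)
        ((SimplyConnectedSpace.paths_homotopic _ _).map (ph g))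
    · obtain ⟨g, x, hx, hlt⟩ : ∃ g x, Φ g x = y ∧ ¬ 1 / 2 < ‖(x : Fin n → ℝ)‖ := by
        by_contra hne
        exact hy fun g x hx => by_contra fun h' => hne ⟨g, x, hx, h'⟩
      obtain rfl : ph g x = y := Subtype.ext hx
      refine ⟨((α g).trans ((PathConnectedSpace.somePath b (CL.ee n x)).map
        (ph g).continuous)).cast rfl (e g x), fun h' => (hy h').elim, fun g' x' hx' h1 h2 β => ?_⟩
      obtain ⟨rfl, rfl⟩ := h.inj g' g x' x h1 (by linarith [not_lt.1 hlt])
        (congrArg Subtype.val h2)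
      exact hcast (Path.Homotopic.hcomp (Path.Homotopic.refl _)
        ((SimplyConnectedSpace.paths_homotopic _ _).map (ph g'))) _
  choose δ hδ1 hδ2 using hδ
  refine sc_of_cover (fun i : Option Γ => i.elim W fun g => {y | y.1 ∈ Φ g '' CL.ob n}) ?_ ?_ F
    (inc a0) δ ?_
  · rintro (_ | g)
    · obtain ⟨O, hO, hOe⟩ := h.openW
      have : W = Subtype.val ⁻¹' O := by
        ext y
        constructor
        · intro hy
          have h1 : y.1 ∈ O ∩ B := hOe ▸ ⟨y.2, hy⟩
          exact h1.1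
        · intro hy
          have h1 : y.1 ∈ O ∩ B := ⟨hy, y.2⟩
          rw [hOe] at h1
          exact h1.2
      exact this ▸ hO.preimage continuous_subtype_val
    · obtain ⟨O, hO, hOe⟩ := h.openV g _ (CL.isOpen_ob n) fun x hx => hx
      have : {y : B | y.1 ∈ Φ g '' CL.ob n} = Subtype.val ⁻¹' O := by
        ext y
        rw [← hOe]
        exact ⟨fun hy => hy.1, fun hy => ⟨hy, y.2⟩⟩
      change IsOpen {y : B | y.1 ∈ Φ g '' CL.ob n}
      exact this ▸ hO.preimage continuous_subtype_val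
  · intro y
    by_cases hy : y ∈ W
    · exact ⟨none, hy⟩
    · obtain ⟨g, x, hx, hlt⟩ : ∃ g x, Φ g x = y ∧ ¬ 1 / 2 < ‖(x : Fin n → ℝ)‖ := by
        by_contra hne
        exact hy fun g x hx => by_contra fun h' => hne ⟨g, x, hx, h'⟩
      exact ⟨some g, x, show ‖(x : Fin n → ℝ)‖ < 1 by linarith [not_lt.1 hlt], hx⟩
  · rintro (_ | g) x y γ hγ
    · exact hA _ _ _ _ (htr _ _ (hδ1 x (γ.source ▸ hγ 0)) fun t => hW _ (hγ t))
        (hδ1 y (γ.target ▸ hγ 1))
    · obtain ⟨z, hz⟩ := lift_seg h g ⟨fun t => (γ t).1, by fun_prop⟩ (fun t => (γ t).2) hγ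
      have hz' : ∀ t, ph g (z t) = γ t := fun t => Subtype.ext (hz t).2
      have e0 : ph g (z 0) = x := (hz' 0).trans γ.source
      have e1 : ph g (z 1) = y := (hz' 1).trans γ.target
      let ζ : Path (CL.ee n (z 0)) (CL.ee n (z 1)) := ⟨(CL.ee n).comp z, rfl, rfl⟩
      let β := PathConnectedSpace.somePath b (CL.ee n (z 0))
      have h0 := hδ2 x g (z 0) (e0 ▸ e g _) (hz 0).1 e0 β
      have h1 := hδ2 y g (z 1) (e1 ▸ e g _) (hz 1).1 e1 (β.trans ζ)
      refine ((Path.Homotopic.hcomp h0 (Path.Homotopic.refl _)).trans ?_).trans h1.symm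
      rw [trans_cast _ (ζ.map (ph g).continuous) _ _ (e1 ▸ e g _) fun t => by
        change f (γ t) = ph g (CL.ee n (z t))
        rw [← hz', e], Path.map_trans]
      exact hcast ⟨Path.Homotopy.transAssoc _ _ _⟩ _

end Vale.Agent.P263B67
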